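import Vale.Agent.P366I.Main

open Matrix Filter Topology Vale.Agent.P366
open scoped ContDiff

theorem Vale.Agent.Results.P366.Imcf.result (n : ℕ) (hn : 3 ≤ n)
    (r₁ r₀ : ℝ) (hr₁ : 0 < r₁) (hr₀ : r₁ < r₀) (g K : Fld n)
    (hg : ∀ i j, ContDiffOn ℝ ∞ (fun x => g x i j) {x | r₁ < ‖x‖})
    (hK : ∀ i j, ContDiffOn ℝ ∞ (fun x => K x i j) {x | r₁ < ‖x‖})
    (hpos : ∀ x, r₁ < ‖x‖ → (g x).PosDef) (hsym : ∀ x, r₁ < ‖x‖ → (K x).IsSymm)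
    (hH : ∀ x y : Euc n, r₁ < ‖x‖ → ‖x‖ = ‖y‖ → lapse g x * meanH g x = lapse g y * meanH g y)
    (hk : ∀ x y : Euc n, r₁ < ‖x‖ → ‖x‖ = ‖y‖ → lapse g x * trS g K x = lapse g y * trS g K y)
    (hX : ∀ x : Euc n, r₁ < ‖x‖ → divg g (fun i y => lapse g y * Xv g K i y) x = 0)
    (q C R₀ : ℝ) (hq : ((n : ℝ) - 2) / 2 < q)
    (hdec : ∀ x : Euc n, R₀ < ‖x‖ → ∀ i j k,
      |g x i j - (1 : Matrix (Fin n) (Fin n) ℝ) i j| ≤ C * ‖x‖ ^ (-q) ∧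
      |pd (fun y => g y i j) k x| ≤ C * ‖x‖ ^ (-q - 1) ∧ |K x i j| ≤ C * ‖x‖ ^ (-q - 1))
    (hDEC : ∀ x, r₀ ≤ ‖x‖ → curNorm g K x ≤ mu g K x)
    (htrap : ∀ x, ‖x‖ = r₀ → thetaP g K x ≤ 0)
    (En : ℝ) (P : Euc n) (hE : Tendsto (enFlux g) atTop (𝓝 En))
    (hP : ∀ i, Tendsto (momFlux g K i) atTop (𝓝 (P i))) :
    ‖P‖ ≤ En ∧ ∃ R, r₀ ≤ R ∧
      (1 / 2) * (area g R / omega n) ^ (((n : ℝ) - 2) / ((n : ℝ) - 1)) ≤ √(En ^ 2 - ‖P‖ ^ 2) := by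
  have ho : IsOpen {x : Euc n | r₁ < ‖x‖} := isOpen_lt continuous_const continuous_norm
  obtain ⟨h0, hpos', R, hR, hle⟩ := main_imcf hn hr₀
    ⟨hr₁, fun x hx i j => (hg i j).contDiffAt (ho.mem_nhds hx), hpos⟩
    (fun x hx i j => (hK i j).contDiffAt (ho.mem_nhds hx)) hsym hH hk hX hq (decU_of hdec) hDEC
    htrap hE hP
  subst h0
  refine ⟨by simpa using hpos'.le, R, hR, ?_⟩
  simpa [Real.sqrt_sq hpos'.le] using hle
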