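import Vale.Agent.P366.Main

open Matrix Filter Topology Vale.Agent.P366

theorem Vale.Agent.Results.P366.SpInvariant.result (n : ℕ) (hn : 4 < n)
    (I J : Matrix (Fin n) (Fin n) ℝ) (hI : Iᵀ = -I) (hJ : Jᵀ = -J) (hII : I * I = -1)
    (hJJ : J * J = -1) (hIJ : I * J = -(J * I))
    (r₁ r₀ : ℝ) (hr₁ : 0 < r₁) (hr₀ : r₁ < r₀) (g K : Fld n)
    (hg : ∀ i j, ContDiffOn ℝ 2 (fun x => g x i j) {x | r₁ < ‖x‖})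
    (hK : ∀ i j, ContDiffOn ℝ 1 (fun x => K x i j) {x | r₁ < ‖x‖})
    (hpos : ∀ x, r₁ < ‖x‖ → (g x).PosDef) (hsym : ∀ x, r₁ < ‖x‖ → (K x).IsSymm)
    (hinv : ∀ A : Matrix (Fin n) (Fin n) ℝ, Aᵀ * A = 1 → A * I = I * A → A * J = J * A →
      ∀ x, r₁ < ‖x‖ → Aᵀ * g (act A x) * A = g x ∧ Aᵀ * K (act A x) * A = K x)
    (q C R₀ : ℝ) (hq : ((n : ℝ) - 2) / 2 < q)
    (hdec : ∀ x : Euc n, R₀ < ‖x‖ → ∀ i j k,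
      |g x i j - (1 : Matrix (Fin n) (Fin n) ℝ) i j| ≤ C * ‖x‖ ^ (-q) ∧
      |pd (fun y => g y i j) k x| ≤ C * ‖x‖ ^ (-q - 1) ∧ |K x i j| ≤ C * ‖x‖ ^ (-q - 1))
    (hDEC : ∀ x, r₀ ≤ ‖x‖ → curNorm g K x ≤ mu g K x)
    (htrap : ∀ x, ‖x‖ = r₀ → thetaP g K x ≤ 0)
    (En : ℝ) (P : Euc n) (hE : Tendsto (enFlux g) atTop (𝓝 En))
    (hP : ∀ i, Tendsto (momFlux g K i) atTop (𝓝 (P i))) :
    ‖P‖ ≤ En ∧ ∃ R, r₀ ≤ R ∧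
      (1 / 2) * (area g R / omega n) ^ (((n : ℝ) - 2) / ((n : ℝ) - 1)) ≤ √(En ^ 2 - ‖P‖ ^ 2) := by
  have hQ := qt_of hI hJ hII hJJ hIJ
  have hc : ∀ A : Matrix (Fin n) (Fin n) ℝ, (∀ a, A * ![1, I, J, I * J] a = ![1, I, J, I * J] a * A) →
      A * I = I * A ∧ A * J = J * A := fun A hA => ⟨hA 1, hA 2⟩
  obtain ⟨F, G, hg'⟩ := rad_of_inv (k := 2) hQ hn hr₁ hg
    (fun x hx => by simpa [Matrix.IsSymm] using (hpos x hx).isHermitian.eq)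
    (fun A hA hA' x hx => (hinv A hA (hc A hA').1 (hc A hA').2 x hx).1)
  obtain ⟨FK, L, hK'⟩ := rad_of_inv (k := 1) hQ hn hr₁ hK hsym
    (fun A hA hA' x hx => (hinv A hA (hc A hA').1 (hc A hA').2 x hx).2)
  obtain ⟨h0, hpos', R, hR, hle⟩ :=
    main_rad hQ hn hr₁ hr₀ hg' hK' hpos hq hdec hDEC htrap hE hP
  subst h0
  refine ⟨by simpa using hpos'.le, R, hR, ?_⟩
  simpa [Real.sqrt_sq hpos'.le] using hle
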